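import Vale.Agent.P181.HO.Defs
import Vale.Agent.P181.DG2.H398.Up
import Vale.Agent.P181.DGx.H831.Mono
import Vale.Agent.P181.SZR1a.Main

set_option autoImplicit false

/-!
# P181, HO (HO3): the mark
-/

open MvPolynomial

namespace Vale.Agent.P181.HO.H352

open Vale.Agent.P181.T4 (HW mem_HW)
open Vale.Agent.P181.H280 (plethMult)
open Vale.Agent.P181.SZ (tl TI)
open Vale.Agent.P181.DG
open Vale.Agent.P181.DGx.H831 (monoT transT mem_PKT)

lemma two_add (m x y : ℕ) (i : Fin m) : two m x i + two m y i = two m (x + y) i := by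
  unfold two
  split_ifs <;> rfl

lemma two_zero (m : ℕ) (i : Fin m) : two m 0 i = 0 := by
  unfold two
  split_ifs <;> rfl

/-- The steps, in terms of `gT`. -/
lemma gT_step (hV : VacStep) {m S s ω t : ℕ} (nu : Fin m → ℕ) (hS : 1 ≤ S) (h : Vac m S s ω)
    (ht : 1 ≤ t) : gT m S nu 0 t ≤ gT m S (fun i => nu i + two m ω i) 0 (t + s) := by
  obtain ⟨t, rfl⟩ : ∃ t', t = t' + 1 := ⟨t - 1, by omega⟩
  have h1 := hV m S s ω t nu hS h
  have h2 := monoT m S nu 0 t hS
  have h3 := monoT m S (fun i => nu i + two m ω i) 0 (t + s) hS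
  unfold gT
  have e1 : t + 1 - 1 = t := rfl
  have e2 : t + 1 + s - 1 = t + s := by omega
  have e3 : t + 1 + s = t + s + 1 := by omega
  rw [e1, e2]
  rw [e3] at h1 ⊢
  omega

lemma gT_iter (hV : VacStep) {m S s ω : ℕ} (hS : 1 ≤ S) (h : Vac m S s ω) (n : ℕ) :
    ∀ (t : ℕ) (nu : Fin m → ℕ), 1 ≤ t →
      gT m S nu 0 t ≤ gT m S (fun i => nu i + two m (n * ω) i) 0 (t + n * s) := by
  induction n with
  | zero =>
    intro t nu _
    refine le_of_eq ?_
    have e1 : (fun i => nu i + two m (0 * ω) i) = nu := by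
      funext i
      rw [Nat.zero_mul, two_zero, Nat.add_zero]
    rw [e1, Nat.zero_mul, Nat.add_zero]
  | succ n ih =>
    intro t nu ht
    refine (gT_step hV nu hS h ht).trans ((ih (t + s) _ (by omega)).trans (le_of_eq ?_))
    have e1 : (fun i => nu i + two m ω i + two m (n * ω) i) =
        fun i => nu i + two m ((n + 1) * ω) i := by
      funext i
      rw [Nat.add_assoc, two_add]
      congr 2
      ring
    have e2 : t + s + n * s = t + (n + 1) * s := by ring
    rw [e1, e2]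

/-- All the columns between `t` and `a + 1` are filled with vacuum blocks. -/
lemma gT_fill (hV : VacStep) (hB : VacBase) {m S a b0 κ t : ℕ} (nu : Fin m → ℕ) (hm : 2 ≤ m)
    (hS : 5 ≤ S) (h1 : a + 4 ≤ 3 * κ) (h2 : 3 * κ ≤ a + 6) (h3 : 2 * b0 + 20 ≤ a)
    (ht : 1 ≤ t) (htb : t ≤ b0) :
    gT m S nu 0 t ≤ gT m S (fun i => nu i + two m (2 * κ) i) 0 (a + 1) := by
  obtain ⟨v1, v2, v3⟩ := hB m S hm hS
  have hS1 : 1 ≤ S := by omega
  obtain ⟨l, q, hl, hs⟩ : ∃ l q : ℕ, l ≤ 2 ∧ t + 3 * q + 4 * l = a + 1 := by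
    refine ⟨(a + 1 - t) % 3, (a + 1 - t - 4 * ((a + 1 - t) % 3)) / 3, ?_, ?_⟩
    · have := Nat.mod_lt (a + 1 - t) (show 0 < 3 by norm_num)
      omega
    · omega
  obtain ⟨j, hj⟩ : ∃ j : ℕ, j + q + 2 * l = κ := ⟨κ - q - 2 * l, by omega⟩
  obtain ⟨i, hi⟩ : ∃ i : ℕ, i + j = q := ⟨q - j, by omega⟩
  refine (gT_iter hV hS1 v3 l t nu ht).trans ((gT_iter hV hS1 v2 j _ _ (by omega)).trans
    ((gT_iter hV hS1 v1 i _ _ (by omega)).trans (le_of_eq ?_)))
  have e1 : (fun x => nu x + two m (l * 4) x + two m (j * 4) x + two m (i * 2) x) =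
      fun x => nu x + two m (2 * κ) x := by
    funext x
    rw [Nat.add_assoc, Nat.add_assoc, two_add, two_add]
    congr 2
    omega
  have e2 : t + l * 4 + j * 3 + i * 3 = a + 1 := by omega
  rw [e1, e2]

/-- No column: no invariant of positive weight. -/
lemma NT_zero {m S : ℕ} (mu : Fin m → ℕ) (h : 0 < ∑ i, mu i) : NT m S mu 0 0 = 0 := by
  have e : (0 : Multiset ℕ) = Finset.univ.val.map (fun _ : Fin 0 => 0) := by simp
  rw [e, ← transT m S (Fin 0) (fun _ => 0) 0 mu]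
  have hbot : PKT m S (Fin 0) (fun _ => 0) 0 mu = ⊥ := by
    rw [eq_bot_iff]
    intro f hf
    rw [Submodule.mem_bot]
    apply MvPolynomial.ext
    intro v
    rw [coeff_zero]
    by_contra hv
    have h1 := (mem_PKT.1 hf).1.1 v hv
    have h2 : ∀ i, mu i = 0 := fun i => by
      rw [← h1 i]
      exact Finset.sum_eq_zero fun j _ => by
        rcases j with j | j <;> exact j.elim0
    rw [Finset.sum_eq_zero fun i _ => h2 i] at h
    exact absurd h (lt_irrefl 0)
  rw [hbot, finrank_bot]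

lemma NT_le {m S : ℕ} (nu : Fin m → ℕ) (G : ℕ) (hS : 1 ≤ S) (h : 0 < ∑ i, nu i) (b0 : ℕ)
    (hG : ∀ t, 1 ≤ t → t ≤ b0 → gT m S nu 0 t ≤ G) : NT m S nu 0 b0 ≤ b0 * G := by
  induction b0 with
  | zero => rw [NT_zero nu h]; exact Nat.zero_le _
  | succ b ih =>
    have h1 := ih fun t h1 h2 => hG t h1 (by omega)
    have h2 := hG (b + 1) (by omega) le_rfl
    have h3 := monoT m S nu 0 b hS
    unfold gT at h2
    have e1 : b + 1 - 1 = b := rfl
    rw [e1] at h2
    have e2 : (b + 1) * G = b * G + G := by ring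
    omega

/-- **(HO3)** the mark. -/
theorem markH (hV : VacStep) (hB : VacBase) : MarkH := by
  classical
  intro m S a a0 b0 κ lam nu hm hS ha0 h1 h2 h3 hnu hlam
  have e1 : tl lam = fun i => tl nu i + two m (2 * κ) i := funext hlam
  rw [e1]
  have h4 : plethMult b0 a0 (m + 1) nu ≤ NT m S (tl nu) 0 b0 := by
    refine (Vale.Agent.P181.SZ.R1a b0 a0 m nu).trans
      ((Vale.Agent.P181.DG2.H398.upT b0 a0 m S (tl nu) (by omega)).trans ?_)
    have h5 : ((KT (∑ i, tl nu i) S).filter (fun k => Multiset.card k ≤ b0 ∧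
        ∀ x ∈ k, x ≤ a0)) ⊆ {0} := by
      intro k hk
      rw [Finset.mem_filter] at hk
      rw [Finset.mem_singleton]
      by_contra h0
      obtain ⟨x, hx⟩ := Multiset.exists_mem_of_ne_zero h0
      have h6 := hk.2.2 x hx
      have h7 := hk.1
      unfold KT at h7
      rw [Finset.mem_biUnion] at h7
      obtain ⟨u, _, hu⟩ := h7
      rw [Finset.mem_filter] at hu
      have h8 := hu.2 x hx
      omega
    refine (Finset.sum_le_sum_of_subset h5).trans ?_
    rw [Finset.sum_singleton, Multiset.card_zero, Nat.sub_zero]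
  refine h4.trans (NT_le _ _ (by omega) hnu b0 fun t ht1 ht2 => ?_)
  exact gT_fill hV hB (tl nu) hm hS h1 h2 h3 ht1 ht2

end Vale.Agent.P181.HO.H352
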